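import Mathlib

namespace Vale.Agent.Results.P314.BoundedDimension

universe u

/-- Noncommutative formulas over `F` in the variables `x_i`, `i : Fin n`: rooted binary trees whose
leaves are variables or scalars and whose internal vertices are addition or multiplication gates
with ordered inputs. -/
inductive NCFormula (F : Type u) (n : ℕ) : Type u
  | var : Fin n → NCFormula F n
  | const : F → NCFormula F n
  | add : NCFormula F n → NCFormula F n → NCFormula F n
  | mul : NCFormula F n → NCFormula F n → NCFormula F n

namespace NCFormula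

variable {F : Type u} {n : ℕ}

/-- The size of a formula: the total number of its vertices, leaves included. -/
def size : NCFormula F n → ℕ
  | var _ => 1
  | const _ => 1
  | add a b => size a + size b + 1
  | mul a b => size a + size b + 1

/-- The polynomial computed by a formula, an element of the free associative algebra. -/
noncomputable def poly [Field F] : NCFormula F n → FreeAlgebra F (Fin n)
  | var i => FreeAlgebra.ι F i
  | const c => algebraMap F (FreeAlgebra F (Fin n)) c
  | add a b => poly a + poly b
  | mul a b => poly a * poly b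

end NCFormula

/-- `H` is a hitting set for the polynomials computed by formulas of size at most `s` in `n`
variables: a finite set of tuples of square matrices (of varying dimensions `T.1`) such that every
nonzero such polynomial has a nonzero ordered matrix evaluation at some tuple of `H`. -/
def IsHittingSet (F : Type u) [Field F] (n s : ℕ)
    (H : Finset (Σ k : ℕ, Fin n → Matrix (Fin k) (Fin k) F)) : Prop :=
  ∀ φ : NCFormula F n, φ.size ≤ s → φ.poly ≠ 0 →
    ∃ T ∈ H, FreeAlgebra.lift F T.2 φ.poly ≠ 0

open NCFormula

variable {F : Type u} {n : ℕ}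

/-- formula for a power of a variable -/
def fpow (x : Fin n) [One F] : ℕ → NCFormula F n
  | 0 => const 1
  | k + 1 => mul (fpow x k) (var x)

/-- ordered product of a list of formulas -/
def fprod [One F] : List (NCFormula F n) → NCFormula F n
  | [] => const 1
  | a :: l => mul a (fprod l)

/-- sum of a list of formulas -/
def fsum [Zero F] : List (NCFormula F n) → NCFormula F n
  | [] => const 0
  | a :: l => add a (fsum l)

theorem size_fpow [One F] (x : Fin n) (k : ℕ) : (fpow (F := F) x k).size = 2 * k + 1 := by
  induction k with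
  | zero => rfl
  | succ k ih => simp only [fpow, size, ih]; ring

theorem size_fprod_le [One F] (B : ℕ) (l : List (NCFormula F n)) (h : ∀ a ∈ l, a.size ≤ B) :
    (fprod l).size ≤ l.length * (B + 1) + 1 := by
  induction l with
  | nil => simp [fprod, size]
  | cons a l ih =>
    have h1 := h a (by simp)
    have h2 := ih (fun b hb => h b (by simp [hb]))
    simp only [fprod, size, List.length_cons]
    nlinarith

theorem size_fsum_le [Zero F] (B : ℕ) (l : List (NCFormula F n)) (h : ∀ a ∈ l, a.size ≤ B) :
    (fsum l).size ≤ l.length * (B + 1) + 1 := by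
  induction l with
  | nil => simp [fsum, size]
  | cons a l ih =>
    have h1 := h a (by simp)
    have h2 := ih (fun b hb => h b (by simp [hb]))
    simp only [fsum, size, List.length_cons]
    nlinarith

variable [Field F]

theorem poly_fpow (x : Fin n) (k : ℕ) : (fpow (F := F) x k).poly = FreeAlgebra.ι F x ^ k := by
  induction k with
  | zero => simp [fpow, poly]
  | succ k ih => simp [fpow, poly, ih, pow_succ]

theorem poly_fprod (l : List (NCFormula F n)) : (fprod l).poly = (l.map poly).prod := by
  induction l with
  | nil => simp [fprod, poly]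
  | cons a l ih => simp [fprod, poly, ih]

theorem poly_fsum (l : List (NCFormula F n)) : (fsum l).poly = (l.map poly).sum := by
  induction l with
  | nil => simp [fsum, poly]
  | cons a l ih => simp [fsum, poly, ih]

/-- one signed monomial of the identity -/
def term (x y : Fin n) (m : ℕ) (σ : Equiv.Perm (Fin m)) : NCFormula F n :=
  mul (const ((Equiv.Perm.sign σ : ℤ) : F))
    (fprod (List.ofFn fun i : Fin m => mul (fpow x (σ i)) (var y)))

/-- the formula of the identity -/
noncomputable def ident (x y : Fin n) (m : ℕ) : NCFormula F n :=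
  fsum ((Finset.univ : Finset (Equiv.Perm (Fin m))).toList.map (term x y m))

theorem size_term_le (x y : Fin n) (m : ℕ) (σ : Equiv.Perm (Fin m)) :
    (term (F := F) x y m σ).size ≤ 2 * m ^ 2 + 2 * m + 3 := by
  have h := size_fprod_le (F := F) (2 * m + 1)
    (List.ofFn fun i : Fin m => mul (fpow x (σ i)) (var y)) (by
      intro a ha
      rw [List.mem_ofFn] at ha
      obtain ⟨i, rfl⟩ := ha
      simp only [size, size_fpow]
      have := (σ i).isLt
      omega)
  simp only [List.length_ofFn] at h
  simp only [term, size]
  nlinarith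

theorem size_ident_le (x y : Fin n) (m : ℕ) :
    (ident (F := F) x y m).size ≤ m.factorial * (2 * m ^ 2 + 2 * m + 4) + 1 := by
  have h := size_fsum_le (F := F) (2 * m ^ 2 + 2 * m + 3)
    ((Finset.univ : Finset (Equiv.Perm (Fin m))).toList.map (term x y m)) (by
      intro a ha
      rw [List.mem_map] at ha
      obtain ⟨σ, -, rfl⟩ := ha
      exact size_term_le x y m σ)
  simp only [List.length_map, Finset.length_toList, Finset.card_univ, Fintype.card_perm,
    Fintype.card_fin] at h
  exact h

theorem poly_ident (x y : Fin n) (m : ℕ) :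
    (ident (F := F) x y m).poly = ∑ σ : Equiv.Perm (Fin m), ((Equiv.Perm.sign σ : ℤ) : F) •
      (List.ofFn fun i : Fin m => FreeAlgebra.ι F x ^ (σ i : ℕ) * FreeAlgebra.ι F y).prod := by
  unfold ident
  rw [poly_fsum, List.map_map, Finset.sum_map_toList]
  refine Finset.sum_congr rfl fun σ _ => ?_
  simp only [Function.comp_def, term, poly, poly_fprod, List.map_ofFn, poly_fpow, Algebra.smul_def]

theorem map_poly_ident {A : Type*} [Ring A] [Algebra F A] (g : FreeAlgebra F (Fin n) →ₐ[F] A)
    (x y : Fin n) (m : ℕ) :
    g (ident (F := F) x y m).poly = ∑ σ : Equiv.Perm (Fin m), ((Equiv.Perm.sign σ : ℤ) : F) •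
      (List.ofFn fun i : Fin m => g (FreeAlgebra.ι F x) ^ (σ i : ℕ) * g (FreeAlgebra.ι F y)).prod := by
  rw [poly_ident, map_sum]
  refine Finset.sum_congr rfl fun σ _ => ?_
  rw [map_smul, map_list_prod, List.map_ofFn]
  simp [Function.comp_def]

/-- the alternating sum vanishes whenever the first `m` powers of `X` are linearly dependent -/
theorem alt_vanish {A : Type*} [Ring A] [Algebra F A] (m : ℕ) (X Y : A)
    (hdep : ¬ LinearIndependent F (fun i : Fin m => X ^ (i : ℕ))) :
    ∑ σ : Equiv.Perm (Fin m), ((Equiv.Perm.sign σ : ℤ) : F) •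
      (List.ofFn fun i : Fin m => X ^ (σ i : ℕ) * Y).prod = 0 := by
  let μ : MultilinearMap F (fun _ : Fin m => A) A :=
    (MultilinearMap.mkPiAlgebraFin F m A).compLinearMap (fun _ => LinearMap.mulRight F Y)
  have h := AlternatingMap.map_linearDependent (MultilinearMap.alternatization μ)
    (fun i : Fin m => X ^ (i : ℕ)) hdep
  rw [MultilinearMap.alternatization_apply] at h
  rw [← h]
  refine Finset.sum_congr rfl fun σ _ => ?_
  rw [Int.cast_smul_eq_zsmul]
  simp [μ, Units.smul_def]

/-- Cayley Hamilton: the powers `X^0, ..., X^k` of a `k × k` matrix are linearly dependent -/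
theorem powers_dependent (k m : ℕ) (hk : k < m) (X : Matrix (Fin k) (Fin k) F) :
    ¬ LinearIndependent F (fun i : Fin m => X ^ (i : ℕ)) := by
  intro hli
  rw [Fintype.linearIndependent_iff] at hli
  have h0 : ∑ i : Fin m, X.charpoly.coeff (i : ℕ) • X ^ (i : ℕ) = 0 := by
    rw [Fin.sum_univ_eq_sum_range (fun i => X.charpoly.coeff i • X ^ i) m,
      ← Polynomial.aeval_eq_sum_range' (by simpa using hk) X]
    exact Matrix.aeval_self_charpoly X
  have h1 := hli (fun i => X.charpoly.coeff (i : ℕ)) h0 ⟨k, hk⟩
  have h2 : X.charpoly.coeff k = 1 := by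
    have := (Matrix.charpoly_monic X).coeff_natDegree
    simpa using this
  simp only [h2] at h1
  exact one_ne_zero h1

theorem block_inj {α : Type*} {x y : α} (hxy : x ≠ y) :
    ∀ (k k' : ℕ) (r r' : List α),
      List.replicate k x ++ y :: r = List.replicate k' x ++ y :: r' → k = k' ∧ r = r' := by
  intro k
  induction k with
  | zero =>
    intro k' r r' h
    cases k' with
    | zero => simpa using h
    | succ k' =>
      simp [List.replicate_succ] at h
      exact absurd h.1.symm hxy
  | succ k ih =>
    intro k' r r' h
    cases k' with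
    | zero =>
      simp [List.replicate_succ] at h
      exact absurd h.1 hxy
    | succ k' =>
      simp [List.replicate_succ] at h
      obtain ⟨h1, h2⟩ := ih k' r r' h
      exact ⟨by omega, h2⟩

/-- the word `x^{k_1} y x^{k_2} y ...` as a list of letters -/
def enc {α : Type*} (x y : α) : List ℕ → List α
  | [] => []
  | k :: l => List.replicate k x ++ y :: enc x y l

theorem enc_inj {α : Type*} {x y : α} (hxy : x ≠ y) : Function.Injective (enc x y) := by
  intro l
  induction l with
  | nil =>
    intro l' h
    cases l' with
    | nil => rfl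
    | cons k' l' => simp [enc] at h
  | cons k l ih =>
    intro l' h
    cases l' with
    | nil => simp [enc] at h
    | cons k' l' =>
      obtain ⟨h1, h2⟩ := block_inj hxy k k' _ _ h
      rw [h1, ih h2]

theorem toList_pow_of {α : Type*} (x : α) (k : ℕ) :
    FreeMonoid.toList (FreeMonoid.of x ^ k) = List.replicate k x := by
  induction k with
  | zero => rfl
  | succ k ih => rw [pow_succ', FreeMonoid.toList_of_mul, ih, List.replicate_succ]

theorem toList_word {α : Type*} (x y : α) (l : List ℕ) :
    FreeMonoid.toList ((l.map fun k => FreeMonoid.of x ^ k * FreeMonoid.of y).prod) =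
      enc x y l := by
  induction l with
  | nil => rfl
  | cons k l ih =>
    rw [List.map_cons, List.prod_cons, FreeMonoid.toList_mul, FreeMonoid.toList_mul, ih,
      toList_pow_of, FreeMonoid.toList_of]
    simp [enc]

theorem poly_ident_ne_zero (x y : Fin n) (hxy : x ≠ y) (m : ℕ) :
    (ident (F := F) x y m).poly ≠ 0 := by
  classical
  intro h0
  let g : FreeAlgebra F (Fin n) →ₐ[F] MonoidAlgebra F (FreeMonoid (Fin n)) :=
    FreeAlgebra.lift F fun i => MonoidAlgebra.of F (FreeMonoid (Fin n)) (FreeMonoid.of i)
  have h1 := map_poly_ident g x y m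
  rw [h0, map_zero] at h1
  let w : Equiv.Perm (Fin m) → FreeMonoid (Fin n) := fun σ =>
    ((List.ofFn fun i : Fin m => (σ i : ℕ)).map
      fun k => FreeMonoid.of x ^ k * FreeMonoid.of y).prod
  have hw : ∀ σ : Equiv.Perm (Fin m),
      (List.ofFn fun i : Fin m => g (FreeAlgebra.ι F x) ^ (σ i : ℕ) * g (FreeAlgebra.ι F y)).prod
        = MonoidAlgebra.of F _ (w σ) := by
    intro σ
    simp only [w, g, FreeAlgebra.lift_ι_apply, map_list_prod, List.map_ofFn, Function.comp_def,
      map_mul, map_pow]
  have hinj : ∀ σ : Equiv.Perm (Fin m), w σ = w 1 → σ = 1 := by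
    intro σ h
    have h' := congrArg FreeMonoid.toList h
    simp only [w, toList_word] at h'
    have h'' := List.ofFn_injective (enc_inj hxy h')
    ext i
    have := congrFun h'' i
    simpa using this
  simp only [hw] at h1
  have h2 := congrArg (fun p => p.coeff (w 1)) h1
  simp only [MonoidAlgebra.coeff_zero, MonoidAlgebra.coeff_sum, MonoidAlgebra.coeff_smul,
    MonoidAlgebra.of_apply, MonoidAlgebra.coeff_single, Finsupp.coe_finsetSum, Finsupp.coe_smul,
    Finset.sum_apply, Pi.smul_apply, Finsupp.single_apply, Finsupp.coe_zero, Pi.zero_apply] at h2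
  rw [Finset.sum_eq_single 1] at h2
  · simp at h2
  · intro σ _ hσ
    rw [if_neg (fun h => hσ (hinj σ h))]
    simp
  · intro h
    exact absurd (Finset.mem_univ _) h

/-- No bounded matrix dimension suffices for black-box identity testing of noncommutative
formulas: for every `d`, every field `F`, every number `n ≥ 2` of variables and every size bound
`s ≥ (d + 1)! · (2 (d + 1)² + 2 (d + 1) + 4) + 1`, every hitting set for the polynomials computed by
formulas of size at most `s` contains a tuple of matrices of dimension greater than `d`. -/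
theorem result (d : ℕ) (F : Type u) [Field F] (n s : ℕ) (hn : 2 ≤ n)
    (hs : (d + 1).factorial * (2 * (d + 1) ^ 2 + 2 * (d + 1) + 4) + 1 ≤ s)
    (H : Finset (Σ k : ℕ, Fin n → Matrix (Fin k) (Fin k) F)) (hH : IsHittingSet F n s H) :
    ∃ T ∈ H, d < T.1 := by
  have hxy : (⟨0, by omega⟩ : Fin n) ≠ ⟨1, by omega⟩ := by
    intro h
    simp [Fin.ext_iff] at h
  obtain ⟨T, hT, hne⟩ := hH (ident ⟨0, by omega⟩ ⟨1, by omega⟩ (d + 1))
    ((size_ident_le _ _ _).trans hs) (poly_ident_ne_zero _ _ hxy _)
  refine ⟨T, hT, ?_⟩
  by_contra hd
  apply hne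
  rw [map_poly_ident]
  exact alt_vanish _ _ _ (powers_dependent T.1 (d + 1) (by omega) _)

end Vale.Agent.Results.P314.BoundedDimension
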